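import Vale.Agent.P057L.Drop

/-! Dropping frequencies with the kernel chosen before the function. -/

set_option linter.all false

open Finset
open scoped BigOperators Classical

namespace Vale.Agent.P057Q

open Vale.Agent.P057Z Vale.Agent.P057Z.Ke Vale.Agent.P057L Vale.Agent.P057L.Drop

/-- the span of the reductions -/
def sp (Q : ℕ) [Fact Q.Prime] {r t : ℕ} (b : Fin t → Fin r → ℤ) :
    Submodule (ZMod Q) (Fin r → ZMod Q) :=
  Submodule.span (ZMod Q) (Set.range fun i => cs Q (b i))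

/-- dropping frequencies, with the kernel fixed in advance -/
def DROPU : Prop :=
  ∀ (j : ℕ) (ε : ℝ), 0 < ε → ε ≤ 1 / 100 → ∃ C : ℕ, ∀ (Y : ℝ) (N Q r : ℕ) [Fact Q.Prime] (ρ : ℝ),
    (C : ℝ) ≤ Y → Y ^ C ≤ Real.log N → N ≤ Q → (r : ℝ) ≤ Y → Real.exp (-Y) ≤ ρ →
    ∃ (K0 : ℕ) (Ψ0 : (Fin r → ZMod Q) → ℝ), (K0 : ℝ) + 1 ≤ Real.exp (6 * Y) ∧ LL (1 / ρ) Ψ0 ∧
      FA Ψ0 K0 (Real.exp (6 * Y ^ 2)) (Real.exp (-(3 * Y))) ∧
      ∀ (q T : ℕ) (θ : ℝ) (G : Pt j q → ℤ → ℝ) (ξ γ : Pt j q → Fin r → ZMod Q)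
        (Ω : Finset (Pt j q)), (q : ℝ) ≤ Y → (∀ W s, 0 ≤ G W s ∧ G W s ≤ Real.exp Y) →
        0 ≤ θ → θ ≤ Real.exp Y → (∀ i l l', Fac G (Real.exp Y) i l l') → In1 Y N T ρ θ G ξ γ Ω →
        ∃ (t : ℕ) (b : Fin t → Fin r → ℤ) (Ω1 : Finset (Pt j q)), Ω1 ⊆ Ω ∧
          In2 (Y ^ C) N T (K0 + 1) ρ ((1 - ε) * θ) G ξ γ b (avg (sp Q b) Ψ0) Ω1 ∧
          ∀ i l l', Pr (fun W (a : Fin t) => cs Q (b a) ⬝ᵥ ξ W) Ω1 i l l'

theorem dropu (h1 : DRP1) (h2 : COV) : DROPU := by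
  intro j ε e0 e1
  obtain ⟨C1, h1⟩ := h1 j
  obtain ⟨C2, h2⟩ := h2 j
  refine ⟨3 * (C1 + 1) * C2 + 16 + j + C1 + C2 + ⌈2 / ε⌉₊, ?_⟩
  intro Y N Q r _ ρ hY hN hNQ hr hρ
  set C := 3 * (C1 + 1) * C2 + 16 + j + C1 + C2 + ⌈2 / ε⌉₊ with hC
  have c : ∀ n : ℕ, n ≤ C → (n : ℝ) ≤ Y := fun n h => le_trans (by exact_mod_cast h) hY
  have y10 : (10 : ℝ) ≤ Y := by exact_mod_cast c 10 (by omega)
  have y1 : (1 : ℝ) ≤ Y := by linarith
  have E0 := Real.exp_pos Y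
  have κ0 := Real.exp_pos (-Y)
  have κE : Real.exp (-Y) * Real.exp Y = 1 := by rw [← Real.exp_add]; simp
  have y2 : 6 * Y ≤ Y ^ C := le_trans (by nlinarith) (pw_le y1 (by omega : 2 ≤ C))
  have ρ0 : 0 < ρ := κ0.trans_le hρ
  obtain ⟨u1, u2, u3, u4, u5, u6⟩ := num0 y10 e0 ((Nat.le_ceil _).trans (c _ (by omega))) hρ
  obtain ⟨Ψ, K0, hK, hL, hΨ, hc⟩ := sm Q (Fin r) Y (3 * Y) (1 / ρ) (ε / 2) (lap ρ) y10
    (by simpa using hr) (by positivity) u1 u2 (by linarith) u3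
    ((exp_le_of_log (by linarith) (by linarith)).trans
      (by exact_mod_cast hNQ)) (lap_ll ρ0)
  refine ⟨K0, Ψ, (add_le_add_left hK 1).trans u5, hL, hc,
    fun q T θ G ξ γ Ω hq hG t0 t1 hF I => ?_⟩
  have y3 : Y ≤ Y ^ 3 := le_pw y1 (by omega)
  have E3 : Real.exp Y ≤ Real.exp (Y ^ 3) := Real.exp_le_exp.2 y3
  choose col k1 k2 k3 using fun (k : Fin r → ℤ) (τ : Fin j × Fin q × Fin q) =>
    h2 ((Y ^ 3) ^ (C1 + 1)) q N Q (fun W => cs Q k ⬝ᵥ ξ W) τ.1 τ.2.1 τ.2.2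
      ((c _ (by omega)).trans (y3.trans (le_pw (y1.trans y3) (by omega)))) (I.hT.trans I.hTN)
  set δ := Real.exp (-Y ^ 3) * Real.exp Y ^ 2 * (N : ℝ) ^ (j * q) with hδ
  have d1 : ∀ (k : Fin r → ℤ) (τ : Fin j × Fin q × Fin q) (G' : Pt j q → ℤ → ℝ),
      Fac G' (Real.exp Y) τ.1 τ.2.1 τ.2.2 → ∀ U ⊆ bp j q N, (∀ W ∈ U, col k τ W = 0) →
      ‖∑ W ∈ U, md k (ξ W) (γ W) T (G' W)‖ ≤ δ := fun k τ G' hG' U hU h0 => by
    by_contra hlt
    have a := h1 (Y ^ 3) (Real.exp Y) q N T Q (fun W => cs Q k ⬝ᵥ ξ W) U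
      (fun W => ch (cs Q k ⬝ᵥ γ W)) G' τ.1 τ.2.1 τ.2.2 ((c _ (by omega)).trans y3) (hq.trans y3)
      I.hT I.hTN (I.hNT.trans (by gcongr)) I.hNQ (I.hQN.trans (by gcongr)) E0 hU
      (fun W => (norm_ch _).le) hG' (not_le.1 hlt).le
    have b := a.trans_lt (k3 k τ U hU h0)
    rw [Real.exp_lt_exp, neg_lt_neg_iff] at b
    exact absurd (pw_le (y1.trans y3) (Nat.le_succ C1)) (not_le.2 b)
  set θ' := (1 - ε) * θ with hθ'
  have θ0 : 0 ≤ θ' := mul_nonneg (by linarith) t0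
  have θ1 : θ' ≤ Real.exp Y := (mul_le_of_le_one_left t0 (by linarith)).trans t1
  have d2 := fun k => split (bp j q N)
    (fun W => md k (ξ W) (γ W) T (G W) - md k (ξ W) (γ W) T fun _ => θ')
    (fun τ W => col k τ W = 0) (δ := 2 * δ) (fun τ U hU h0 => by
      rw [sum_sub_distrib, two_mul]
      refine (norm_sub_le _ _).trans (add_le_add (d1 k τ G (hF _ _ _) U hU h0)
        (d1 k τ (fun _ _ => θ') (fun W0 => ⟨0, fun _ _ => θ', fun _ _ => 1, Or.inl rfl,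
          fun _ _ => ?_, fun _ _ => ?_, fun _ _ _ => (mul_one _).symm⟩) U hU h0))
      · rwa [abs_of_nonneg θ0]
      · rw [abs_one]
        exact Real.one_le_exp (by linarith)) univ
  set m := (univ : Finset (Fin j × Fin q × Fin q)).card with hm
  have m3 : (m : ℝ) ≤ Y ^ 3 := by
    rw [hm, card_univ, Fintype.card_prod, Fintype.card_prod, Fintype.card_fin, Fintype.card_fin]
    push_cast
    calc _ ≤ Y * (Y * Y) := by gcongr; exact c _ (by omega)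
      _ = _ := by ring
  set n := ⌊Real.exp (((Y ^ 3) ^ (C1 + 1)) ^ C2)⌋₊ with hn
  set P := Sm (Fin r) K0 ×ˢ Fintype.piFinset fun _ : Fin j × Fin q × Fin q => Icc 1 n with hP
  choose lab l1 l2 l3 l4 using fun W : Pt j q =>
    ex_lab P (fun a => cs Q a.1) fun a => ∀ τ, col a.1 τ W = a.2 τ
  set K : Pt j q → Submodule (ZMod Q) (Fin r → ZMod Q) := fun W =>
    spn (fun a => cs Q a.1) (lab W) with hK'
  set b : Pt j q → ℝ := fun W => exc (avg (K W) Ψ) (ξ W) (γ W) T (G W) θ' with hb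
  have gθ : ∀ W s, |G W s - θ'| ≤ Real.exp Y := fun W s =>
    abs_le.2 ⟨by linarith [(hG W s).1], by linarith [(hG W s).2]⟩
  have s4 := est Ω ξ γ G K I.hT hc gθ u4 (fun W hW => smooth e0 (by linarith) t0
    (fun s => (hG W s).1) (fun u => (lap_pos ρ u).le) hΨ κ0.le (I.hx W hW)) (δ := m * (2 * δ))
    (by positivity)
    (by
      calc _ = Real.exp (6 * Y ^ 2) * (m * (2 * (Real.exp (-Y ^ 3) * Real.exp Y ^ 2))) *
          (N : ℝ) ^ (j * q) := by rw [hδ]; ring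
        _ ≤ _ := mul_le_mul_of_nonneg_right (num1 y10 m3) (by positivity)
        _ = _ := mul_right_comm _ _ _
        _ ≤ _ := mul_le_mul_of_nonneg_right I.hd.2 (by positivity))
    fun k hk => d2 k _ ((filter_subset _ _).trans I.hd.1) fun W hW => by
      by_contra h
      refine (mem_filter.1 hW).2 (l4 W (k, fun τ => col k τ W) (mem_product.2 ⟨hk,
        Fintype.mem_piFinset.2 fun τ => mem_Icc.2 ⟨?_, Nat.le_floor (k1 k τ W)⟩⟩) fun _ => rfl)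
      exact Nat.one_le_iff_ne_zero.2 fun h' => h ⟨τ, mem_univ _, h'⟩
  have s5 := mark Ω b κ0 κE (fun W => expect_le (rgne I.hT) fun s _ =>
    (mul_le_mul_of_nonneg_left (le_of_abs_le (gθ W s)) ((avg_ll hL).pos _).le).trans
      (mul_le_of_le_one_left E0.le ((avg_ll hL).le_one _))) I.hd.2 s4
  set Ω' := Ω.filter fun W => Real.exp (-Y) / 8 ≤ b W with hΩ'
  obtain ⟨d, hd⟩ := pick Ω' (labs r P) lab l1 0 (B := Y ^ C) (by positivity) s5
    (le_trans (mul_le_mul_of_nonneg_left (Nat.cast_le.2 (card_P K0 n)) (by positivity))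
      ((num2 (D := 3 * (C1 + 1) * C2) y10 I.hr hK
        (by rw [pow_mul, pow_mul]; exact Nat.floor_le (Real.exp_pos _).le) m3).trans
        (Real.exp_le_exp.2 (pw_le y1 (by omega)))))
  set Ω1 := Ω'.filter fun W => lab W = d with hΩ1
  have s6 : Dn Ω1 N (Y ^ C) :=
    ⟨((filter_subset _ _).trans (filter_subset _ _)).trans I.hd.1, hd⟩
  have hΩ : ∀ W ∈ Ω1, W ∈ bp j q N ∧ lab W = d ∧ Real.exp (-Y) / 8 ≤ b W := fun W hW =>
    ⟨s6.1 hW, (mem_filter.1 hW).2, (mem_filter.1 (mem_filter.1 hW).1).2⟩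
  obtain ⟨W0, hW0⟩ := s6.nonempty (I.hT.trans I.hTN)
  obtain rfl := (hΩ W0 hW0).2.1
  obtain ⟨p1, p2⟩ := mem_sigma.1 (l1 W0)
  have p3 := fun a => mem_product.1 (Fintype.mem_piFinset.1 p2 a)
  have e : sp Q (fun a => ((lab W0).2 a).1) = K W0 := rfl
  refine ⟨(lab W0).1, fun a => ((lab W0).2 a).1, Ω1, (filter_subset _ _).trans (filter_subset _ _),
    ?_⟩
  rw [e]
  refine ⟨⟨Nat.lt_succ_iff.1 (mem_range.1 p1), Nat.le_add_left _ _, ?_, fun a => Sm_succ (p3 a).1,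
      l3 W0, avg_ll hL, fun u v h => avg_add Ψ u (spn_perp h), s6, fun W hW => ?_⟩, ?_⟩
  · rw [Nat.cast_succ]
    exact ((add_le_add_left hK 1).trans u5).trans (Real.exp_le_exp.2 y2)
  · have a1 : _ ≤ exc (avg (K W) Ψ) (ξ W) (γ W) T (G W) θ' := (hΩ W hW).2.2
    rw [show K W = K W0 from congrArg (spn _) (hΩ W hW).2.1] at a1
    exact ((Real.exp_le_exp.2 (neg_le_neg y2)).trans u6).trans a1
  · intro i l l' W a a' w1 w2 w3 w4
    funext x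
    have hm : ∀ V ∈ Ω1, V ∈ (bp j q N).filter fun V =>
        col ((lab W0).2 x).1 (i, l, l') V = ((lab W0).2 x).2 (i, l, l') := fun V hV => by
      refine mem_filter.2 ⟨(hΩ V hV).1, ?_⟩
      have := l2 V
      rw [(hΩ V hV).2.1] at this
      exact this x _
    exact k2 ((lab W0).2 x).1 (i, l, l') _ (Nat.one_le_iff_ne_zero.1
      (mem_Icc.1 (Fintype.mem_piFinset.1 (p3 x).2 _)).1) W a a' (hm _ w1) (hm _ w2) (hm _ w3)
      (hm _ w4)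

end Vale.Agent.P057Q
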