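import Vale.Agent.P057L.S1

/-! The sifting step with the scales chosen before the function. -/

set_option linter.all false

open Finset
open scoped BigOperators

namespace Vale.Agent.P057Q

open Vale.Agent.P057Z Vale.Agent.P057L Vale.Agent.P057L.S1A

/-- the sifting step with scales fixed in advance -/
def S1U : Prop :=
  ∀ (j : ℕ) (ε : ℝ), 0 < ε → ε ≤ 1 / 100 → ∃ C : ℕ, ∀ (Y : ℝ) (N : ℕ), (C : ℝ) ≤ Y →
    Y ^ C ≤ Real.log N → ∃ (T Q r : ℕ) (_ : Fact Q.Prime) (ρ : ℝ), ∀ (θ : ℝ) (q : ℕ) (g : ℤ → ℝ),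
    1 ≤ q → (q : ℝ) ≤ Y → (∀ x, 0 ≤ g x ∧ g x ≤ Real.exp Y) → 1 / 2 ≤ θ →
    θ ^ (q ^ (j + 2)) ≤ grd (j + 2) q N g →
    ∃ (x0 : ℤ) (ξ γ : Pt j q → Fin r → ZMod Q) (Ω : Finset (Pt j q)), |x0| ≤ 3 * N ∧
      In1 (Y ^ C) N T ρ ((1 - ε) * θ ^ (q ^ j)) (fun W s => Gw g W (x0 + s)) ξ γ Ω

theorem s1u (hL : LOC) (hS : SIFT) (hK : KM1) : S1U := by
  classical
  intro j ε ε0 ε1
  obtain ⟨δ, hδ⟩ : ∃ δ : ℝ, ε = 3 * δ := ⟨ε / 3, by ring⟩
  have δ0 : 0 < δ := by linarith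
  obtain ⟨C1, hC⟩ := hK δ δ0 (by linarith)
  refine ⟨(j + 4) + (j + 4) * C1 + 1 + (C1 + 16 + ⌈2 / δ⌉₊), fun Y N hY hN => ?_⟩
  have c1 := Nat.le_ceil (2 / δ)
  generalize ⌈2 / δ⌉₊ = c at hY hN c1 ⊢
  generalize hC' : (j + 4) + (j + 4) * C1 + 1 + (C1 + 16 + c) = C at hY hN ⊢
  have hY' : (C1 : ℝ) + 16 + c ≤ Y := le_trans (by exact_mod_cast (by omega : C1 + 16 + c ≤ C)) hY
  have c0 : (0 : ℝ) ≤ c := Nat.cast_nonneg c
  have C0 : (0 : ℝ) ≤ C1 := Nat.cast_nonneg C1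
  have Y1 : 1 ≤ Y := by linarith
  have Y0 : 0 ≤ Y := by linarith
  have eδ : Real.exp (-Y) ≤ δ / 2 := nA δ0 (by linarith)
  have hA : (Y ^ (j + 4)) ^ C1 ≤ Y ^ C := by rw [← pow_mul]; exact pw_le Y1 (by omega)
  obtain ⟨T3, T, Q, r, hQ, ρ, k1, k2, k3, k4, k5, k6, k7, k8, k9, k10, km⟩ :=
    hC (Y ^ (j + 4)) N (le_trans (by linarith) (le_pw Y1 (by omega))) (hA.trans hN)
  refine ⟨T, Q, r, hQ, ρ, fun θ q g q1 hq hg hθ h => ?_⟩
  have N1 : 1 ≤ N := k3.trans k4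
  have N0 : (0 : ℝ) < N := by exact_mod_cast N1
  obtain ⟨P, hP⟩ : ∃ P : ℝ, P = Y ^ (j + 1) := ⟨_, rfl⟩
  have P1 : Y ≤ P := hP ▸ le_pw Y1 (by omega)
  have n2 : ((q * q : ℕ) : ℝ) ≤ Y ^ 2 := by
    rw [Nat.cast_mul, sq]; exact mul_le_mul hq hq (Nat.cast_nonneg _) Y0
  have n1 : 1 ≤ q * q := Nat.mul_pos q1 q1
  have n3 : Y + P * (3 * (q * q : ℕ) + 2) ≤ Y ^ (j + 4) := hP ▸ nB (by linarith) n2 j
  have Gb : ∀ (W : Pt j q) (s : ℤ), 0 ≤ Gw g W s ∧ Gw g W s ≤ Real.exp P :=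
    fun W s => hP ▸ Gw_bd Y0 hq hg W s
  obtain ⟨lam, hl⟩ : ∃ lam : ℝ, lam = θ ^ (q ^ j) := ⟨_, rfl⟩
  have l1 : Real.exp (-P) ≤ lam / 2 := by rw [hP, hl]; exact nC (by linarith) hq hθ j
  have l0 : 0 < lam := by linarith [Real.exp_pos (-P)]
  rw [← hl]
  rw [pow_add, pow_mul, ← hl, sq] at h
  obtain ⟨o, o1, ho⟩ := hL ℤ ℤ (j + 2) (fun _ => rg N) (fun _ => q) (fun y => g (∑ i, y i)) 0
    (Ico (-(T3 : ℤ)) N) (fun o => (rg T3).image (o + ·)) (1 + (T3 : ℝ) / N) (fun y => (hg _).1) q1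
    ⟨0, by rw [mem_Ico]; omega⟩ (by positivity) (win N1 k1)
  rw [split] at ho
  have hB := nD (by linarith) hq N0 (by linarith) eδ k2
  set TT : Pt j q → ℝ := fun W => 𝔼 x ∈ Fintype.piFinset (fun _ : Fin q => (rg T3).image (o + ·)),
    𝔼 y ∈ Fintype.piFinset (fun _ : Fin q => rg N), ∏ a, ∏ b, Gw g W (x a + y b) with hTT
  have ne1 : ((rg T3).image (o + ·)).Nonempty := (rg_ne k1).image _
  have T1 : ∀ W, TT W ≤ Real.exp P ^ (q * q) := fun W =>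
    expect_le (Fintype.piFinset_nonempty.2 fun _ => ne1) fun x _ =>
      expect_le (Fintype.piFinset_nonempty.2 fun _ => rg_ne N1) fun y _ => by
        refine (prod_le_prod (fun a _ => prod_nonneg fun b _ => (Gb _ _).1) fun a _ =>
          prod_le_prod (fun b _ => (Gb _ _).1) fun b _ => (Gb _ _).2).trans ?_
        simp only [prod_const, card_univ, Fintype.card_fin, pow_mul, le_refl]
  have T0 : 0 ≤ 𝔼 W ∈ bp j q N, TT W := expect_nonneg fun W _ => expect_nonneg fun x _ =>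
    expect_nonneg fun y _ => prod_nonneg fun a _ => prod_nonneg fun b _ => (Gb _ _).1
  have bc : ((bp j q N).card : ℝ) = (N : ℝ) ^ (j * q) := by
    simp only [bp, bz, Fintype.card_piFinset, prod_const, card_univ, Fintype.card_fin, rg_card]
    rw [← pow_mul, mul_comm q j, Nat.cast_pow]
  have hd := dense (bp j q N) TT (a := ((1 - δ) * lam) ^ (q * q)) (b := δ / 2 * lam ^ (q * q))
    (pow_nonneg (mul_nonneg (by linarith) l0.le) _) T1
    (Fintype.piFinset_nonempty.2 fun _ => Fintype.piFinset_nonempty.2 fun _ => rg_ne N1) 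
    (nE n1 δ0 (by linarith) l0 T0 (h.trans ho) hB)
  set Ω0 := (bp j q N).filter fun W => ((1 - δ) * lam) ^ (q * q) ≤ TT W with hΩ0
  have d0 : Real.exp (-Y ^ (j + 4)) * (N : ℝ) ^ (j * q) ≤ Ω0.card :=
    nF (Y0.trans P1) (by positivity) eδ l1 n3 (bc ▸ hd)
  obtain ⟨l2, l3, l4⟩ := nH δ0 (hδ ▸ ε1) (Real.exp_pos _) l1
  rw [← hδ] at l3 l4
  have key : ∀ W ∈ Ω0, ∃ ξ : Fin r → ZMod Q, Real.exp (-(Y ^ (j + 4)) ^ C1) * N ≤
      ((Icc (-(2 * N : ℤ)) (2 * N)).filter fun z => ∃ γ : Fin r → ZMod Q,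
        Real.exp (-(Y ^ (j + 4)) ^ C1) ≤
          exc (lap ρ) ξ γ T (fun s => Gw g W (o + z + s)) ((1 - ε) * lam)).card := by
    intro W hW
    obtain ⟨u, v, hu, hv, s1, s2⟩ := hS ℤ ℤ ((rg T3).image (o + ·)) (rg N) q
      (fun a b => Gw g W (a + b)) (Real.exp P) ((1 - δ) * lam) δ ne1 (rg_ne N1) q1
      (Real.one_le_exp (Y0.trans P1)) (fun a b => Gb _ _) ((Real.exp_pos _).trans_le l2) δ0
      (by linarith) (mem_filter.1 hW).2
    simp only [expect_image (add_right_injective _).injOn] at s1 s2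
    have u0 : 0 ≤ 𝔼 x ∈ rg T3, u (o + x) := expect_nonneg fun x _ => (hu _).1
    have u1 : 𝔼 x ∈ rg T3, u (o + x) ≤ 1 := expect_le (rg_ne k1) fun x _ => (hu _).2
    have v0 : 0 ≤ 𝔼 y ∈ rg N, v y := expect_nonneg fun x _ => (hv _).1
    have v1 : 𝔼 y ∈ rg N, v y ≤ 1 := expect_le (rg_ne N1) fun x _ => (hv _).2
    have s3 := (nG eδ l2 n3).trans s1
    have δ1 : 0 < 1 - δ := by linarith
    have hP4 : P ≤ Y ^ (j + 4) := hP ▸ pw_le Y1 (by omega)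
    obtain ⟨ξ, hξ⟩ := km (fun s => Gw g W (o + s)) (fun x => u (o + x)) v
      ((1 - ε) * lam / (1 - δ)) (fun x => ⟨(Gb _ _).1, (Gb _ _).2.trans (Real.exp_le_exp.2 hP4)⟩)
      (fun x => hu _) hv ((Real.exp_le_exp.2 (neg_le_neg hP4)).trans l3)
      (s3.trans (mul_le_of_le_one_right u0 v1)) (s3.trans (mul_le_of_le_one_left v0 u1)) (by
        refine le_trans ?_ (s2.trans_eq (by simp only [add_assoc]))
        exact mul_le_mul_of_nonneg_right (mul_le_mul_of_nonneg_right l4 u0) v0)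
    rw [mul_div_cancel₀ _ δ1.ne'] at hξ
    exact ⟨ξ, by simpa only [add_assoc] using hξ⟩
  choose! ξ hξ using key
  have hc : ((Icc (-(2 * N : ℤ)) (2 * N)).card : ℝ) = 4 * N + 1 := by
    have h : (Icc (-(2 * N : ℤ)) (2 * N)).card = 4 * N + 1 := by rw [Int.card_Icc]; omega
    rw [h]; push_cast; ring
  set Z : Pt j q → Finset ℤ := fun W => (Icc (-(2 * N : ℤ)) (2 * N)).filter fun z =>
    ∃ γ : Fin r → ZMod Q, Real.exp (-(Y ^ (j + 4)) ^ C1) ≤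
      exc (lap ρ) (ξ W) γ T (fun s => Gw g W (o + z + s)) ((1 - ε) * lam) with hZ
  obtain ⟨z, z1, hz⟩ := exists_le_of_sum_le (s := Icc (-(2 * N : ℤ)) (2 * N))
    (f := fun _ => Real.exp (-(Y ^ (j + 4)) ^ C1) * Ω0.card / 5)
    (g := fun z => ((Ω0.filter fun W => z ∈ Z W).card : ℝ)) ⟨0, by rw [mem_Icc]; omega⟩ (by
      rw [sum_card_swap _ Ω0 Z fun W => filter_subset _ _, sum_const, nsmul_eq_mul, hc]
      refine le_trans ?_ (card_nsmul_le_sum Ω0 _ _ hξ)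
      rw [nsmul_eq_mul]
      exact nJ (Real.exp_pos _).le (Nat.cast_nonneg _) (by exact_mod_cast N1))
  have key2 : ∀ W ∈ Ω0.filter fun W => z ∈ Z W, ∃ γ : Fin r → ZMod Q,
      Real.exp (-(Y ^ (j + 4)) ^ C1) ≤
        exc (lap ρ) (ξ W) γ T (fun s => Gw g W (o + z + s)) ((1 - ε) * lam) :=
    fun W hW => (mem_filter.1 (mem_filter.1 hW).2).2
  choose! γ hγ using key2
  have eA : Real.exp (-Y ^ C) ≤ Real.exp (-(Y ^ (j + 4)) ^ C1) := Real.exp_le_exp.2 (neg_le_neg hA)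
  have YC : Y ≤ Y ^ C := le_pw Y1 (by omega)
  refine ⟨o + z, ξ, γ, Ω0.filter fun W => z ∈ Z W, ?_, k8.trans hA, eA.trans k9, k10,
    k3, k4, k5.trans (by gcongr), k6, ?_, ⟨(filter_subset _ _).trans (filter_subset _ _), ?_⟩,
    fun W hW => eA.trans (hγ W hW)⟩
  · have a1 : (T3 : ℝ) ≤ N := le_trans (le_mul_of_one_le_right (by positivity)
      (Real.one_le_exp (by positivity))) k2
    have a2 : T3 ≤ N := by exact_mod_cast a1
    rw [mem_Ico] at o1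
    rw [mem_Icc] at z1
    rw [abs_le]
    omega
  · have h1 : (Q : ℝ) ≤ 16 * N := by exact_mod_cast k7
    refine h1.trans ((mul_comm _ _).trans_le (mul_le_mul_of_nonneg_left ?_ N0.le))
    linarith [Real.add_one_le_exp (Y ^ C)]
  · exact nI (by linarith) (by positivity) (by omega) (by omega) d0 hz

end Vale.Agent.P057Q
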