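import Vale.Agent.P057L.All0
import Vale.Agent.P057Q.S1u
import Vale.Agent.P057Q.Dropu

/-! The scalar half step with all scales and the kernel chosen before the function. -/

set_option linter.all false

open Finset
open scoped BigOperators

namespace Vale.Agent.P057Q

open Vale.Agent.P057Z Vale.Agent.P057L

/-- the numerical data of the half step -/
structure Sc {Q r : ℕ} [Fact Q.Prime] (Y Z : ℝ) (N T K0 : ℕ) (ρ : ℝ)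
    (Ψ0 : (Fin r → ZMod Q) → ℝ) : Prop where
  hr : (r : ℝ) ≤ Z
  hρ : Real.exp (-Z) ≤ ρ
  hρ1 : ρ ≤ 1
  hT : 1 ≤ T
  hTN : T ≤ N
  hNT : N ≤ T * Real.exp Z
  hNQ : 2 * N ≤ Q
  hQN : Q ≤ N * Real.exp Z
  hl : LL (1 / ρ) Ψ0
  hf : FA Ψ0 K0 (Real.exp Z) (Real.exp (-Y))

/-- sifting, dropping and exact homomorphisms, scales fixed in advance -/
def SCU : Prop :=
  ∀ (j : ℕ) (ε : ℝ), 0 < ε → ε ≤ 1 / 100 → ∃ C : ℕ, ∀ (Y : ℝ) (N : ℕ), (C : ℝ) ≤ Y →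
    Y ^ C ≤ Real.log N →
    ∃ (T Q r : ℕ) (_ : Fact Q.Prime) (ρ : ℝ) (K0 : ℕ) (Ψ0 : (Fin r → ZMod Q) → ℝ),
      ∀ (θ : ℝ) (q : ℕ) (g : ℤ → ℝ), 1 ≤ q → (q : ℝ) ≤ Y → (∀ x, 0 ≤ g x ∧ g x ≤ Real.exp Y) →
      1 / 2 ≤ θ → θ ^ (q ^ (j + 2)) ≤ grd (j + 2) q N g →
      Sc Y (Y ^ C) N T K0 ρ Ψ0 ∧
      ∃ (x0 : ℤ) (ξ γ : Pt j q → Fin r → ZMod Q) (t : ℕ) (b : Fin t → Fin r → ℤ)
        (E : Finset (Pt j q)), |x0| ≤ 3 * N ∧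
        In2 (Y ^ C) N T (K0 + 1) ρ ((1 - ε) * ((1 - ε) * θ ^ (q ^ j)))
          (fun W s => Gw g W (x0 + s)) ξ γ b (avg (sp Q b) Ψ0) E ∧
        MH (fun W (a : Fin t) => cs Q (b a) ⬝ᵥ ξ W) E

theorem scu (hG : GFAC) (hS : S1U) (hD : DROPU) (hV : VEC) : SCU := by
  intro j ε hε hε'
  obtain ⟨C1, hS⟩ := hS j ε hε hε'
  obtain ⟨C2, hD⟩ := hD j ε hε hε'
  obtain ⟨C3, hV⟩ := hV j
  obtain ⟨a, ha⟩ : ∃ a, a = C1 + j + 1 := ⟨_, rfl⟩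
  obtain ⟨u2, hu2⟩ : ∃ u, u = a * C2 := ⟨_, rfl⟩
  obtain ⟨u3, hu3⟩ : ∃ u, u = (u2 + a) * C3 := ⟨_, rfl⟩
  refine ⟨C1 + C2 + C3 + u2 + u3 + 2 * a + 10, ?_⟩
  intro Y N hY' hN
  push_cast at hY'
  have p1 : (0 : ℝ) ≤ C1 := by positivity
  have p2 : (0 : ℝ) ≤ C2 := by positivity
  have p3 : (0 : ℝ) ≤ C3 := by positivity
  have p7 : (0 : ℝ) ≤ u2 + u3 + 2 * a := by positivity
  have hY : 2 ≤ Y := by linarith
  have hY1 : 1 ≤ Y := by linarith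
  have hY0 : 0 ≤ Y := by linarith
  have hN1 : 1 ≤ N := one_le_of_log (by positivity) hN
  have up : ∀ {x : ℝ} {n : ℕ}, 1 ≤ n → x ≤ Y → x ≤ Y ^ n := fun h hx => hx.trans (le_pw hY1 h)
  obtain ⟨T, Q, r, hQ, ρ, hS⟩ := hS Y N (by linarith) ((pw_le hY1 (by omega)).trans hN)
  by_cases hex : ∃ (θ : ℝ) (q : ℕ) (g : ℤ → ℝ), 1 ≤ q ∧ (q : ℝ) ≤ Y ∧
      (∀ x, 0 ≤ g x ∧ g x ≤ Real.exp Y) ∧ 1 / 2 ≤ θ ∧ θ ^ (q ^ (j + 2)) ≤ grd (j + 2) q N g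
  swap
  · exact ⟨T, Q, r, hQ, ρ, 0, 0, fun θ q g a1 a2 a3 a4 a5 =>
      (hex ⟨θ, q, g, a1, a2, a3, a4, a5⟩).elim⟩
  obtain ⟨θ', q', g', a1, a2, a3, a4, a5⟩ := hex
  obtain ⟨x', ξ', γ', Ω', -, h0⟩ := hS θ' q' g' a1 a2 a3 a4 a5
  have h0' := h0.mono (pw_le hY1 (by omega : C1 ≤ a))
  have hNQ := h0.hNQ
  obtain ⟨K0, Ψ0, k1, k2, k3, hD⟩ := hD (Y ^ a) N Q r ρ (up (by omega) (by linarith))
    (by rw [← pow_mul, ← hu2]; exact (pw_le hY1 (by omega)).trans hN) (by omega) h0'.hr h0'.hρ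
  refine ⟨T, Q, r, hQ, ρ, K0, Ψ0, fun θ q g hq1 hq hg hθ hgr => ⟨?_, ?_⟩⟩
  · have h2 := h0.mono (pw_le hY1 (by omega : C1 ≤ C1 + C2 + C3 + u2 + u3 + 2 * a + 10))
    refine ⟨h2.hr, h2.hρ, h2.hρ1, h2.hT, h2.hTN, h2.hNT, h2.hNQ, h2.hQN, k2, ?_⟩
    obtain ⟨c, c1, c2⟩ := k3
    refine ⟨c, c1.trans (Real.exp_le_exp.2 ?_), fun u => (c2 u).trans (Real.exp_le_exp.2 ?_)⟩
    · rw [← pow_mul]
      exact (mul_pw_le hY0 (by linarith) _).trans (pw_le hY1 (by omega))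
    · have := le_pw hY1 (show 1 ≤ a by omega)
      linarith
  have hM : Real.exp Y ^ (q ^ j) ≤ Real.exp (Y ^ a) := by
    rw [← Real.exp_nat_mul]
    refine Real.exp_le_exp.2 (le_trans ?_ (pw_le hY1 (by omega : j + 1 ≤ a)))
    push_cast; rw [pow_succ]
    exact mul_le_mul_of_nonneg_right (pow_le_pow_left₀ (by positivity) hq j) hY0
  have hθM : θ ≤ Real.exp Y :=
    le_of_pow_le_pow_left₀ (by positivity) (Real.exp_pos Y).le (hgr.trans (grd_le hN1 hg))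
  have hθ0 : 0 ≤ θ := by linarith
  have hθa : θ ^ (q ^ j) ≤ Real.exp (Y ^ a) := (pow_le_pow_left₀ hθ0 hθM _).trans hM
  have hθp : 0 ≤ θ ^ (q ^ j) := by positivity
  have e1 : 0 ≤ 1 - ε := by linarith
  obtain ⟨x0, ξ, γ, Ω, hx0, h1⟩ := hS θ q g hq1 hq hg hθ hgr
  have h1' := h1.mono (pw_le hY1 (by omega : C1 ≤ a))
  have hGb : ∀ (W : Pt j q) (s : ℤ), 0 ≤ Gw g W (x0 + s) ∧ Gw g W (x0 + s) ≤ Real.exp (Y ^ a) :=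
    fun W s => ⟨(gw_bd hg W _).1, (gw_bd hg W _).2.trans hM⟩
  obtain ⟨t, b, Ω1, -, h2, hpr⟩ := hD q T _ _ ξ γ Ω (up (by omega) hq) hGb
    (by positivity) (le_trans (by nlinarith) hθa)
    (fun i l l' => (hG j q g (Real.exp Y) x0 i l l' (Real.one_le_exp hY0) hg).mono hM) h1'
  rw [← pow_mul, ← hu2] at h2
  obtain ⟨E, hE, hED, hEM⟩ := hV (Y ^ (u2 + a)) q N Q (Fin t) _ Ω1 (up (by omega) (by linarith)) hq1
    (up (by omega) hq) hN1 (h2.hd.mono (pw_le hY1 (by omega))) hpr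
  rw [← pow_mul, ← hu3] at hED
  have h3 := h2.mono (pw_le hY1 (by omega : u2 ≤ C1 + C2 + C3 + u2 + u3 + 2 * a + 10))
  exact ⟨x0, ξ, γ, t, b, E, hx0, ⟨h3.ht, h3.hK, h3.hK', h3.hb, h3.hi, h3.hl, h3.hp,
    hED.mono (pw_le hY1 (by omega)), fun W hW => h3.hx W (hE hW)⟩, hEM⟩

theorem scu0 : SCU :=
  scu gfac (s1u loc sift km1) (dropu (drp1 box3) (cov (ch exg))) (vec (ven (hyb_of prune)) All.seq0)

end Vale.Agent.P057Q
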